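import Mathlib

/-!
# P254: moments of the profiles `√(1 - u ^ 2) ^ k`
-/

namespace Vale.Agent.P254t

open MeasureTheory Set Real

/-- The profile of the marginal of a ball. -/
noncomputable def wgt (k : ℕ) (u : ℝ) : ℝ := √(1 - u ^ 2) ^ k

/-- The mass of the profile. -/
noncomputable def wMass (k : ℕ) : ℝ := ∫ u in (0:ℝ)..1, wgt k u

/-- The logarithmic moment of the profile. -/
noncomputable def wLog (k : ℕ) : ℝ := ∫ u in (0:ℝ)..1, log u * wgt k u

/-- The second moment of the profile. -/
noncomputable def wSq (k : ℕ) : ℝ := ∫ u in (0:ℝ)..1, u ^ 2 * wgt k u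

theorem wgt_cont (k : ℕ) : Continuous (wgt k) := by unfold wgt; fun_prop

theorem wgt_nonneg (k : ℕ) (u : ℝ) : 0 ≤ wgt k u := pow_nonneg (sqrt_nonneg _) _

theorem log_wgt_int (k : ℕ) (a b : ℝ) : IntervalIntegrable (fun u => log u * wgt k u) volume a b :=
  intervalIntegral.intervalIntegrable_log'.mul_continuousOn (wgt_cont k).continuousOn

theorem sq_log_wgt_int (k : ℕ) (a b : ℝ) :
    IntervalIntegrable (fun u => u ^ 2 * (log u * wgt k u)) volume a b :=
  (log_wgt_int k a b).continuousOn_mul (by fun_prop)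

theorem wMass_pos (k : ℕ) : 0 < wMass k := by
  refine intervalIntegral.intervalIntegral_pos_of_pos_on ((wgt_cont k).intervalIntegrable _ _)
    (fun u hu => pow_pos (sqrt_pos.2 ?_) _) one_pos
  nlinarith [hu.1, hu.2]

theorem wgt_succ {k : ℕ} {u : ℝ} (hu : u ∈ Icc (0:ℝ) 1) :
    wgt (k + 2) u = wgt k u - u ^ 2 * wgt k u := by
  have : √(1 - u ^ 2) ^ 2 = 1 - u ^ 2 := sq_sqrt (by nlinarith [hu.1, hu.2])
  simp only [wgt, pow_add, this]; ring

theorem wgt_deriv (k : ℕ) {u : ℝ} (hu : u ∈ Ioo (0:ℝ) 1) :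
    HasDerivAt (wgt (k + 2)) (-((k:ℝ) + 2) * u * wgt k u) u := by
  have h1 : 0 < 1 - u ^ 2 := by nlinarith [hu.1, hu.2]
  have := (((hasDerivAt_pow 2 u).const_sub 1).sqrt h1.ne').pow (k + 2)
  refine this.congr_deriv ?_
  simp only [wgt, show k + 2 - 1 = k + 1 by omega, pow_succ, Nat.cast_add, Nat.cast_ofNat]
  field_simp

theorem wMass_succ (k : ℕ) : wMass (k + 2) = ((k:ℝ) + 2) * wSq k := by
  have i1 : IntervalIntegrable (wgt (k + 2)) volume 0 1 := (wgt_cont _).intervalIntegrable _ _
  have i2 : IntervalIntegrable (fun u => u ^ 2 * wgt k u) volume 0 1 :=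
    ((continuous_pow 2).mul (wgt_cont k)).intervalIntegrable _ _
  have := intervalIntegral.integral_eq_sub_of_hasDerivAt_of_le (zero_le_one (α := ℝ))
    (f := fun u => u * wgt (k + 2) u)
    (f' := fun u => wgt (k + 2) u - ((k:ℝ) + 2) * (u ^ 2 * wgt k u))
    (continuous_id.mul (wgt_cont _)).continuousOn
    (fun u hu => ((hasDerivAt_id u).mul (wgt_deriv k hu)).congr_deriv (by simp; ring))
    (i1.sub (i2.const_mul _))
  rw [intervalIntegral.integral_sub i1 (i2.const_mul _), intervalIntegral.integral_const_mul] at this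
  have hz : wgt (k + 2) 1 = 0 := by simp [wgt]
  rw [hz] at this
  simp only [mul_zero, zero_mul, sub_zero] at this
  simp only [wMass, wSq]
  linarith

theorem wMass_diff (k : ℕ) : wMass (k + 2) = wMass k - wSq k := by
  have i1 : IntervalIntegrable (wgt k) volume 0 1 := (wgt_cont _).intervalIntegrable _ _
  have i2 : IntervalIntegrable (fun u => u ^ 2 * wgt k u) volume 0 1 :=
    ((continuous_pow 2).mul (wgt_cont k)).intervalIntegrable _ _
  rw [wMass, wMass, wSq, ← intervalIntegral.integral_sub i1 i2]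
  exact intervalIntegral.integral_congr fun u hu => wgt_succ (by rwa [uIcc_of_le zero_le_one] at hu)

theorem wSq_eq (k : ℕ) : wSq k = wMass k / ((k:ℝ) + 3) := by
  rw [eq_div_iff (by positivity)]
  linarith [wMass_succ k, wMass_diff k]

theorem wMass_two (k : ℕ) : wMass (k + 2) = ((k:ℝ) + 2) / ((k:ℝ) + 3) * wMass k := by
  rw [wMass_succ, wSq_eq]; ring

theorem wLog_rec (k : ℕ) :
    ((k:ℝ) + 3) * wLog (k + 2) = ((k:ℝ) + 2) * wLog k - wMass (k + 2) := by
  have i1 : IntervalIntegrable (fun u => log u * wgt (k + 2) u) volume 0 1 := log_wgt_int _ _ _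
  have i2 : IntervalIntegrable (wgt (k + 2)) volume 0 1 := (wgt_cont _).intervalIntegrable _ _
  have i3 : IntervalIntegrable (fun u => ((k:ℝ) + 2) * (u ^ 2 * (log u * wgt k u))) volume 0 1 :=
    (sq_log_wgt_int k 0 1).const_mul _
  have := intervalIntegral.integral_eq_sub_of_hasDerivAt_of_le (zero_le_one (α := ℝ))
    (f := fun u => u * log u * wgt (k + 2) u)
    (f' := fun u => log u * wgt (k + 2) u + wgt (k + 2) u
      - ((k:ℝ) + 2) * (u ^ 2 * (log u * wgt k u)))
    (continuous_mul_log.mul (wgt_cont _)).continuousOn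
    (fun u hu => ((hasDerivAt_mul_log hu.1.ne').mul (wgt_deriv k hu)).congr_deriv (by ring))
    ((i1.add i2).sub i3)
  rw [intervalIntegral.integral_sub (i1.add i2) i3, intervalIntegral.integral_add i1 i2,
    intervalIntegral.integral_const_mul] at this
  have hd : ∫ u in (0:ℝ)..1, u ^ 2 * (log u * wgt k u) = wLog k - wLog (k + 2) := by
    rw [wLog, wLog, ← intervalIntegral.integral_sub (log_wgt_int _ _ _) i1]
    refine intervalIntegral.integral_congr fun u hu => ?_
    rw [uIcc_of_le zero_le_one] at hu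
    simp only [wgt_succ hu]; ring
  rw [hd, show wgt (k + 2) 1 = 0 by simp [wgt]] at this
  simp only [mul_zero, log_zero, sub_zero, zero_mul] at this
  change wLog (k + 2) + wMass (k + 2) - _ = _ at this
  linarith

theorem log_pow_int (k : ℕ) : ∫ u in (0:ℝ)..1, log u * u ^ k = -1 / ((k:ℝ) + 1) ^ 2 := by
  have i : IntervalIntegrable (fun u => log u * u ^ k) volume 0 1 :=
    intervalIntegral.intervalIntegrable_log'.mul_continuousOn (continuous_pow k).continuousOn
  have := intervalIntegral.integral_eq_sub_of_hasDerivAt_of_le (zero_le_one (α := ℝ))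
    (f := fun u => u ^ k * (u * log u) / ((k:ℝ) + 1) - u ^ (k + 1) / ((k:ℝ) + 1) ^ 2)
    (f' := fun u => log u * u ^ k)
    ((((continuous_pow k).mul continuous_mul_log).div_const _).sub
      ((continuous_pow (k + 1)).div_const _)).continuousOn
    (fun u hu => ?_) i
  · rw [this]; simp; ring
  · have h := ((((hasDerivAt_pow (k + 1) u).mul (hasDerivAt_log hu.1.ne')).div_const
      ((k:ℝ) + 1)).sub ((hasDerivAt_pow (k + 1) u).div_const (((k:ℝ) + 1) ^ 2)))
    have e : (fun u : ℝ => u ^ k * (u * log u) / ((k:ℝ) + 1) - u ^ (k + 1) / ((k:ℝ) + 1) ^ 2) =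
        fun u => u ^ (k + 1) * log u / ((k:ℝ) + 1) - u ^ (k + 1) / ((k:ℝ) + 1) ^ 2 := by
      funext u; ring
    rw [e]
    refine h.congr_deriv ?_
    have := hu.1.ne'
    simp only [Nat.cast_add, Nat.cast_one, add_tsub_cancel_right]
    field_simp
    ring

theorem wMass_one : wMass 1 = π / 4 := by
  have h := integral_sqrt_one_sub_sq
  have hc : ∀ a b : ℝ, IntervalIntegrable (fun x : ℝ => √(1 - x ^ 2)) volume a b := fun a b =>
    Continuous.intervalIntegrable (by fun_prop) a b
  rw [← intervalIntegral.integral_add_adjacent_intervals (hc (-1) 0) (hc 0 1)] at h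
  have e : ∫ x in (-1:ℝ)..0, √(1 - x ^ 2) = ∫ x in (0:ℝ)..1, √(1 - x ^ 2) := by
    have := intervalIntegral.integral_comp_neg (a := 0) (b := 1) (fun x : ℝ => √(1 - x ^ 2))
    simp only [neg_sq, neg_zero] at this
    exact this.symm
  rw [e] at h
  simp only [wMass, wgt, pow_one]
  linarith

theorem wLog_one : -(845501 / 900000 : ℝ) ≤ wLog 1 := by
  have i : ∀ k : ℕ, IntervalIntegrable (fun u : ℝ => log u * u ^ k) volume 0 1 := fun k =>
    intervalIntegral.intervalIntegrable_log'.mul_continuousOn (continuous_pow k).continuousOn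
  have hb : ∫ u in (0:ℝ)..1, (log u * u ^ 0 - 1/2 * (log u * u ^ 2) - 1/8 * (log u * u ^ 4))
      ≤ wLog 1 := by
    refine intervalIntegral.integral_mono_on zero_le_one
      (((i 0).sub ((i 2).const_mul _)).sub ((i 4).const_mul _)) (log_wgt_int 1 0 1) fun u hu => ?_
    have hl : log u ≤ 0 := log_nonpos hu.1 hu.2
    have hx : u ^ 2 ≤ 1 := by nlinarith [hu.1, hu.2]
    have hs : √(1 - u ^ 2) ≤ 1 - u ^ 2 / 2 - u ^ 4 / 8 := by
      have h4 : u ^ 4 ≤ u ^ 2 := by nlinarith [sq_nonneg u]
      rw [sqrt_le_iff]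
      refine ⟨by linarith [sq_nonneg u], ?_⟩
      nlinarith [pow_nonneg (sq_nonneg u) 3, pow_nonneg (sq_nonneg u) 4]
    simp only [wgt, pow_one]
    nlinarith [mul_le_mul_of_nonpos_left hs hl]
  rw [intervalIntegral.integral_sub ((i 0).sub ((i 2).const_mul _)) ((i 4).const_mul _),
    intervalIntegral.integral_sub (i 0) ((i 2).const_mul _), intervalIntegral.integral_const_mul,
    intervalIntegral.integral_const_mul, log_pow_int, log_pow_int, log_pow_int] at hb
  refine le_trans ?_ hb
  norm_num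

theorem log_ratio {x : ℝ} (hx : 0 ≤ x) : 2 * x / (x + 2) ≤ log (1 + x) :=
  le_log_one_add_of_nonneg hx

/-- The mean logarithm of the profile of index `m` is large enough. -/
theorem profile_log : ∀ m : ℕ, 1 ≤ m →
    -2 * (wLog m / wMass m) - 2 < log (((m:ℝ) + 2) / 2) := by
  intro m
  induction m using Nat.strong_induction_on with
  | _ m ih =>
    intro hm
    match m, hm with
    | 1, _ =>
      have h1 := wLog_one
      have h2 := wMass_one
      have hpi : (3.141 : ℝ) < π := by linarith [pi_gt_d4]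
      have hl : (2 / 5 : ℝ) ≤ log ((((1:ℕ) : ℝ) + 2) / 2) := by
        have := log_ratio (x := 1 / 2) (by norm_num)
        norm_num at this ⊢
        linarith
      refine lt_of_lt_of_le ?_ hl
      have hW := wMass_pos 1
      rw [sub_lt_iff_lt_add, ← mul_div_assoc, div_lt_iff₀ hW]
      nlinarith
    | 2, _ =>
      have h0 : wMass 0 = 1 := by simp [wMass, wgt]
      have h0' : wLog 0 = -1 := by
        have := log_pow_int 0
        norm_num at this
        simp [wLog, wgt]
      have h1 := wMass_two 0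
      have h2 := wLog_rec 0
      rw [h0] at h1; rw [h0', h1] at h2
      norm_num at h1 h2
      rw [h1, show wLog 2 = -(8 / 9) by linarith]
      have := log_two_gt_d9
      norm_num
      linarith
    | k + 3, _ =>
      have hk := ih (k + 1) (by omega) (by omega)
      have e1 := wMass_two (k + 1)
      have e2 := wLog_rec (k + 1)
      push_cast at hk e1 e2 ⊢
      have hW := wMass_pos (k + 1)
      have hW' := wMass_pos (k + 1 + 2)
      have hh : wLog (k + 1 + 2) / wMass (k + 1 + 2) =
          wLog (k + 1) / wMass (k + 1) - 1 / ((k:ℝ) + 4) := by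
        have e : wLog (k + 1 + 2) = (((k:ℝ) + 3) * wLog (k + 1) - wMass (k + 1 + 2)) / ((k:ℝ) + 4) := by
          rw [eq_div_iff (by positivity)]; linarith
        rw [e, e1]
        field_simp
        ring
      rw [show k + 3 = k + 1 + 2 by ring, hh]
      have hl := log_ratio (x := 2 / ((k:ℝ) + 3)) (by positivity)
      have e : log (((k:ℝ) + 3 + 2) / 2) =
          log (1 + 2 / ((k:ℝ) + 3)) + log (((k:ℝ) + 1 + 2) / 2) := by
        rw [← log_mul (by positivity) (by positivity)]
        congr 1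
        field_simp
        ring
      have e' : 2 * (2 / ((k:ℝ) + 3)) / (2 / ((k:ℝ) + 3) + 2) = 2 * (1 / ((k:ℝ) + 4)) := by
        field_simp
        ring
      rw [e'] at hl
      linarith

end Vale.Agent.P254t
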