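import Vale.Agent.P254t.LogMean
import Vale.Agent.P254t.Ball

/-!
# P254: the marginal of a 2-convex set against the marginal of a ball
-/

namespace Vale.Agent.P254t

open MeasureTheory Set
open scoped Pointwise ENNReal
open Vale.Agent.P074.BM (sect isCompact_sect bm)
open Vale.Agent.P254s (slice slice_formula)

/-- A down-closed set whose image under coordinatewise squaring is convex. -/
structure QBody {n : ℕ} (C : Set (Fin n → ℝ)) : Prop extends DownSet C where
  rms : ∀ x ∈ C, ∀ y ∈ C, ∀ a b : ℝ, 0 ≤ a → 0 ≤ b → a + b = 1 →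
    (fun i => √(a * x i ^ 2 + b * y i ^ 2)) ∈ C

theorem slice_concave {m : ℕ} {C : Set (Fin (m + 1) → ℝ)} (h : QBody C) {x y θ α β : ℝ}
    (hθ0 : 0 < θ) (hθ1 : θ < 1) (hα : 0 < α) (hβ : 0 < β)
    (hA : slice C x = α ^ m) (hB : slice C y = β ^ m) :
    √((1 - θ) * α ^ 2 + θ * β ^ 2) ^ m ≤ slice C √((1 - θ) * x ^ 2 + θ * y ^ 2) := by
  set s := √((1 - θ) * x ^ 2 + θ * y ^ 2)
  set M := √((1 - θ) * α ^ 2 + θ * β ^ 2) with hM
  have h1θ : 0 < 1 - θ := by linarith
  have hpos : 0 < (1 - θ) * α ^ 2 + θ * β ^ 2 := by positivity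
  have hMp : 0 < M := Real.sqrt_pos.2 hpos
  have hM2 : M ^ 2 = (1 - θ) * α ^ 2 + θ * β ^ 2 := Real.sq_sqrt hpos.le
  set τ := θ * β ^ 2 / M ^ 2 with hτ
  have hτ0 : 0 < τ := by positivity
  have hτ1 : τ < 1 := by
    rw [hτ, div_lt_one (by positivity), hM2]
    linarith [mul_pos h1θ (pow_pos hα 2)]
  have hτ' : 1 - τ = (1 - θ) * α ^ 2 / M ^ 2 := by
    rw [hτ, eq_div_iff (by positivity), sub_mul, div_mul_cancel₀ _ (by positivity), one_mul, hM2]
    ring
  have key := bm hτ0 hτ1 m ((M / α) • sect C x) ((M / β) • sect C y) (sect C s)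
    ((isCompact_sect h.cpt x).smul _) ((isCompact_sect h.cpt y).smul _) (isCompact_sect h.cpt s) ?_
  · have hval : ∀ {t z : ℝ}, 0 < z → slice C t = z ^ m →
        volume ((M / z) • sect C t) = ENNReal.ofReal (M ^ m) := by
      intro t z hz hz2
      rw [Measure.addHaar_smul, Module.finrank_fin_fun,
        ← ENNReal.ofReal_toReal (isCompact_sect h.cpt t).measure_lt_top.ne, ← measureReal_def]
      change _ * ENNReal.ofReal (slice C t) = _
      rw [hz2, ← ENNReal.ofReal_mul (abs_nonneg _), abs_of_nonneg (by positivity), div_pow,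
        div_mul_cancel₀ _ (by positivity)]
    rw [hval hα hA, hval hβ hB, ← ENNReal.rpow_add _ _
      (ENNReal.ofReal_pos.2 (pow_pos hMp m)).ne' ENNReal.ofReal_ne_top, sub_add_cancel, ENNReal.rpow_one] at key
    exact (ENNReal.ofReal_le_iff_le_toReal (isCompact_sect h.cpt s).measure_lt_top.ne).1 key
  rintro _ ⟨a, ha, rfl⟩ _ ⟨b, hb, rfl⟩
  have ht := h.rms _ ha _ hb (1 - θ) θ h1θ.le hθ0.le (by ring)
  have ha0 : ∀ k, 0 ≤ a k := fun k => by simpa using h.pos _ ha k.succ
  have hb0 : ∀ k, 0 ≤ b k := fun k => by simpa using h.pos _ hb k.succ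
  refine h.down _ ht _ (fun i => ?_) fun i => ?_
  · refine Fin.cases ?_ (fun k => ?_) i
    · simp only [Fin.cons_zero]; positivity
    · simp only [Fin.cons_succ, Pi.add_apply, Pi.smul_apply, smul_eq_mul]
      have := ha0 k; have := hb0 k; have : 0 ≤ 1 - τ := by linarith
      positivity
  · refine Fin.cases ?_ (fun k => ?_) i
    · simp [s]
    · simp only [Fin.cons_succ, Pi.add_apply, Pi.smul_apply, smul_eq_mul]
      refine Real.le_sqrt_of_sq_le ?_
      rw [hτ', hτ]
      have e : (1 - θ) * α ^ 2 / M ^ 2 * (M / α * a k) + θ * β ^ 2 / M ^ 2 * (M / β * b k) =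
          ((1 - θ) * α * a k + θ * β * b k) / M := by
        field_simp
      rw [e, div_pow, div_le_iff₀ (by positivity), hM2]
      nlinarith [mul_nonneg (mul_nonneg h1θ.le hθ0.le) (sq_nonneg (α * b k - β * a k))]

theorem wgt_scale {m : ℕ} (hm : 1 ≤ m) {R B : ℝ} (hR : 0 < R) (hRB : R ≤ B) {p : ℝ → ℝ}
    (hp : IntervalIntegrable (fun t => p t * wgt m (t / R)) volume 0 B) :
    ∫ t in (0:ℝ)..B, p t * wgt m (t / R) = R * ∫ u in (0:ℝ)..1, p (R * u) * wgt m u := by
  have h0B : 0 ≤ B := hR.le.trans hRB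
  have hzero : ∫ t in R..B, p t * wgt m (t / R) = 0 := by
    rw [intervalIntegral.integral_congr (g := fun _ => (0:ℝ)) fun t ht => ?_]
    · simp
    · rw [uIcc_of_le hRB] at ht
      have : 1 ≤ t / R := (one_le_div hR).2 ht.1
      have hneg : 1 - (t / R) ^ 2 ≤ 0 := by nlinarith
      simp [wgt, Real.sqrt_eq_zero_of_nonpos hneg, zero_pow (by omega : m ≠ 0)]
  have h1 : IntervalIntegrable (fun t => p t * wgt m (t / R)) volume 0 R :=
    hp.mono_set (by rw [uIcc_of_le hR.le, uIcc_of_le h0B]; exact Icc_subset_Icc le_rfl hRB)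
  have h2 : IntervalIntegrable (fun t => p t * wgt m (t / R)) volume R B :=
    hp.mono_set (by rw [uIcc_of_le hRB, uIcc_of_le h0B]; exact Icc_subset_Icc hR.le le_rfl)
  rw [← intervalIntegral.integral_add_adjacent_intervals h1 h2, hzero, add_zero]
  have := intervalIntegral.integral_comp_div (a := 0) (b := R) (fun u => p (R * u) * wgt m u) hR.ne'
  rw [zero_div, div_self hR.ne', smul_eq_mul] at this
  rw [← this]
  refine intervalIntegral.integral_congr fun t _ => ?_
  show p t * _ = p (R * (t / R)) * _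
  rw [mul_div_cancel₀ _ hR.ne']

theorem slice_connected {m : ℕ} (hm : 1 ≤ m) {C : Set (Fin (m + 1) → ℝ)} (h : QBody C)
    {c R : ℝ} (hc0 : 0 < c) {x y t : ℝ} (hx : 0 < x) (hxt : x < t) (hty : t < y)
    (hhx : c * wgt m (x / R) < slice C x) (hhy : c * wgt m (y / R) < slice C y) :
    c * wgt m (t / R) < slice C t := by
  set γ := c ^ ((m:ℝ)⁻¹) with hγ
  have hγm : γ ^ m = c := Real.rpow_inv_natCast_pow hc0.le (by omega)
  have hγ0 : 0 < γ := Real.rpow_pos_of_pos hc0 _
  set g := fun t => c * wgt m (t / R) with hg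
  change g x < _ at hhx
  change g y < _ at hhy
  show g t < _
  have hgn : ∀ u, 0 ≤ g u := fun u => mul_nonneg hc0.le (wgt_nonneg m _)
  have hgp : ∀ u, g u = (γ * √(1 - (u / R) ^ 2)) ^ m := fun u => by
    rw [mul_pow, hγm]; simp [hg, wgt]
  have root : ∀ u, g u < slice C u → ∃ α, 0 < α ∧ slice C u = α ^ m ∧
      γ ^ 2 * (1 - (u / R) ^ 2) < α ^ 2 := fun u hu => by
    have hp : 0 < slice C u := (hgn u).trans_lt hu
    refine ⟨slice C u ^ ((m:ℝ)⁻¹), Real.rpow_pos_of_pos hp _,
      (Real.rpow_inv_natCast_pow hp.le (by omega)).symm, ?_⟩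
    have hlt : γ * √(1 - (u / R) ^ 2) < slice C u ^ ((m:ℝ)⁻¹) := by
      refine lt_of_pow_lt_pow_left₀ m (Real.rpow_nonneg hp.le _) ?_
      rw [Real.rpow_inv_natCast_pow hp.le (by omega), ← hgp]
      exact hu
    rcases le_or_gt (1 - (u / R) ^ 2) 0 with hn | hn
    · exact (mul_nonpos_of_nonneg_of_nonpos (sq_nonneg _) hn).trans_lt
        (pow_pos (Real.rpow_pos_of_pos hp _) 2)
    · have := pow_lt_pow_left₀ hlt (by positivity) two_ne_zero
      rwa [mul_pow, Real.sq_sqrt hn.le] at this
  obtain ⟨α, hα, hA, ha⟩ := root x hhx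
  obtain ⟨β, hβ, hBy, hb⟩ := root y hhy
  have hd : 0 < y ^ 2 - x ^ 2 := by nlinarith
  set θ := (t ^ 2 - x ^ 2) / (y ^ 2 - x ^ 2) with hθ
  have hθ0 : 0 < θ := div_pos (by nlinarith) hd
  have hθ1 : θ < 1 := by rw [hθ, div_lt_one hd]; nlinarith
  have ht : (1 - θ) * x ^ 2 + θ * y ^ 2 = t ^ 2 := by
    linear_combination div_mul_cancel₀ (t ^ 2 - x ^ 2) hd.ne'
  have hc' := slice_concave h hθ0 hθ1 hα hβ hA hBy
  rw [ht, Real.sqrt_sq (by linarith)] at hc'
  refine lt_of_lt_of_le ?_ hc'
  rw [hgp]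
  have h1θ : 0 < 1 - θ := by linarith
  refine pow_lt_pow_left₀ ?_ (by positivity) (by omega)
  refine Real.lt_sqrt_of_sq_lt ?_
  rcases le_or_gt (1 - (t / R) ^ 2) 0 with hn | hn
  · rw [Real.sqrt_eq_zero_of_nonpos hn, mul_zero, zero_pow two_ne_zero]
    positivity
  · rw [mul_pow, Real.sq_sqrt hn.le]
    have e : γ ^ 2 * (1 - (t / R) ^ 2) = (1 - θ) * (γ ^ 2 * (1 - (x / R) ^ 2)) +
        θ * (γ ^ 2 * (1 - (y / R) ^ 2)) := by
      simp only [div_pow]; rw [← ht]; ring
    rw [e]
    exact add_lt_add (mul_lt_mul_of_pos_left ha h1θ) (mul_lt_mul_of_pos_left hb hθ0)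

theorem coord_bound {m : ℕ} (hm : 1 ≤ m) {C : Set (Fin (m + 1) → ℝ)} (h : QBody C)
    (hV : 0 < volume.real C) :
    0 < ∫ x in C, x 0 ^ 2 ∧
    (Real.log (((m:ℝ) + 3) * ((∫ x in C, x 0 ^ 2) / volume.real C)) / 2 + wLog m / wMass m) *
      volume.real C ≤ ∫ x in C, Real.log (x 0) := by
  set V := volume.real C with hVd
  set Q := ∫ x in C, x 0 ^ 2 with hQd
  have hQ : 0 < Q := by
    rw [hQd, setIntegral_pos_iff_support_of_nonneg_ae
      (Filter.Eventually.of_forall fun x : Fin (m + 1) → ℝ => sq_nonneg (x 0))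
      ((continuous_apply 0).pow 2 |>.continuousOn.integrableOn_compact h.cpt)]
    refine lt_of_lt_of_le (ENNReal.toReal_pos_iff.1 hV).1 (measure_mono_ae ?_)
    filter_upwards [Vale.Agent.P254.ae_generic (n := m + 1)] with x hx hxC
    exact ⟨by simpa using hx.1 0, hxC⟩
  refine ⟨hQ, ?_⟩
  set R := √(((m:ℝ) + 3) * (Q / V)) with hR
  have hR2 : R ^ 2 = ((m:ℝ) + 3) * (Q / V) := Real.sq_sqrt (by positivity)
  have hR0 : 0 < R := Real.sqrt_pos.2 (by positivity)
  obtain ⟨B0, hB0, hout0⟩ := h.slice_out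
  set B := max B0 R with hBd
  have hRB : R ≤ B := le_max_right _ _
  have hB : 0 < B := hR0.trans_le hRB
  have hout : ∀ u, u ∉ Icc 0 B → slice C u = 0 := fun u hu => by
    simp [slice, hout0 u fun hm' => hu ⟨hm'.1, hm'.2.trans (le_max_left _ _)⟩]
  obtain ⟨i0, e0⟩ := slice_formula h.cpt (φ := fun _ => 1)
    (integrableOn_const h.cpt.measure_lt_top.ne)
  obtain ⟨i2, e2⟩ := slice_formula h.cpt (φ := fun t => t ^ 2)
    ((continuous_apply 0).pow 2 |>.continuousOn.integrableOn_compact h.cpt)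
  obtain ⟨iL, eL⟩ := slice_formula h.cpt (φ := Real.log) (log_coord_int h.cpt 0)
  rw [integral_line hB.le fun u hu => by simp [hout u hu]] at e0 e2 eL
  simp only [mul_one] at i0 e0
  have eV : ∫ x in C, (1:ℝ) = V := by simp [hVd]
  rw [eV] at e0
  have hW := wMass_pos m
  set W := wMass m with hWd
  set c := V / (R * W) with hc
  have hc0 : 0 < c := by positivity
  set g := fun t => c * wgt m (t / R) with hg
  have hgc : Continuous g := continuous_const.mul ((wgt_cont m).comp (continuous_id.div_const R))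
  have hw : Continuous fun t => wgt m (t / R) := (wgt_cont m).comp (continuous_id.div_const R)
  have g0 : ∫ t in (0:ℝ)..B, g t = V := by
    have := wgt_scale hm hR0 hRB (p := fun _ => 1)
      ((continuous_const.mul hw).intervalIntegrable 0 B)
    simp only [one_mul] at this
    change _ = R * W at this
    simp only [hg, intervalIntegral.integral_const_mul, this]
    rw [hc]; field_simp
  have g2 : ∫ t in (0:ℝ)..B, t ^ 2 * g t = Q := by
    have := wgt_scale hm hR0 hRB (p := fun t => t ^ 2)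
      (((continuous_pow 2).mul hw).intervalIntegrable 0 B)
    simp only [mul_pow, mul_assoc, intervalIntegral.integral_const_mul] at this
    change _ = R * (R ^ 2 * wSq m) at this
    rw [show (fun t => t ^ 2 * g t) = fun t => c * (t ^ 2 * wgt m (t / R)) from
      funext fun t => by simp only [hg]; ring, intervalIntegral.integral_const_mul, this, wSq_eq,
      hR2, hc]
    field_simp
    rw [← hWd]
  have igL : IntervalIntegrable (fun t => Real.log t * g t) volume 0 B :=
    intervalIntegral.intervalIntegrable_log'.mul_continuousOn hgc.continuousOn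
  have gL : ∫ t in (0:ℝ)..B, Real.log t * g t = V * (Real.log R + wLog m / W) := by
    have := wgt_scale hm hR0 hRB (p := Real.log)
      (intervalIntegral.intervalIntegrable_log'.mul_continuousOn hw.continuousOn)
    have e : ∫ u in (0:ℝ)..1, Real.log (R * u) * wgt m u = Real.log R * W + wLog m := by
      rw [hWd, wMass, wLog, ← intervalIntegral.integral_const_mul,
        ← intervalIntegral.integral_add (((wgt_cont m).intervalIntegrable 0 1).const_mul _)
          (log_wgt_int m 0 1)]
      refine intervalIntegral.integral_congr_ae (Filter.Eventually.of_forall fun u hu => ?_)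
      rw [uIoc_of_le zero_le_one] at hu
      rw [Real.log_mul hR0.ne' hu.1.ne', add_mul]
    rw [e] at this
    rw [show (fun t => Real.log t * g t) = fun t => c * (Real.log t * wgt m (t / R)) from
      funext fun t => by simp only [hg]; ring, intervalIntegral.integral_const_mul, this, hc]
    field_simp
  have toSet : ∀ φ : ℝ → ℝ, ∫ t in Ioo 0 B, φ t = ∫ t in (0:ℝ)..B, φ t := fun φ => by
    rw [intervalIntegral.integral_of_le hB.le, integral_Ioc_eq_integral_Ioo]
  have iL' : Integrable (fun t => Real.log t * slice C t) := by simpa only [mul_comm] using iL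
  have i2' : Integrable (fun t => t ^ 2 * slice C t) := by simpa only [mul_comm] using i2
  have key := crossing (h := fun t => slice C t - g t) (B := B)
    (i0.integrableOn.sub ((hgc.integrableOn_Icc (a := 0) (b := B)).mono_set Ioo_subset_Icc_self)) ?_ ?_ ?_ ?_
  · simp only [mul_sub] at key
    rw [toSet, intervalIntegral.integral_sub iL'.intervalIntegrable igL, gL] at key
    have : ∫ t in (0:ℝ)..B, Real.log t * slice C t = ∫ x in C, Real.log (x 0) := by
      rw [eL]; simp only [mul_comm]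
    rw [this] at key
    have : Real.log R = Real.log (((m:ℝ) + 3) * (Q / V)) / 2 := by
      rw [hR, Real.log_sqrt (by positivity)]
    rw [← this]
    linarith
  · simp only [mul_sub]
    exact iL'.integrableOn.sub (((intervalIntegrable_iff_integrableOn_Ioc_of_le hB.le).1 igL).mono_set
      Ioo_subset_Ioc_self)
  · intro x y t hx hxt hty _ hhx hhy
    simp only [hg, sub_pos] at hhx hhy ⊢
    exact slice_connected hm h hc0 hx hxt hty hhx hhy
  · rw [toSet, intervalIntegral.integral_sub i0.intervalIntegrable (hgc.intervalIntegrable _ _), g0,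
      ← e0, sub_self]
  · simp only [mul_sub]
    have ig2 : IntervalIntegrable (fun t => t ^ 2 * g t) volume 0 B :=
      ((continuous_pow 2).mul hgc).intervalIntegrable _ _
    rw [toSet, intervalIntegral.integral_sub i2'.intervalIntegrable ig2, g2]
    rw [show (fun t => t ^ 2 * slice C t) = fun t => slice C t * t ^ 2 from
      funext fun t => mul_comm _ _, ← e2, sub_self]

end Vale.Agent.P254t
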