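import Vale.Agent.P254s.Orth
import Vale.Agent.P254t.Profile

/-!
# P254: bodies with the symmetries of the coordinate hyperplanes
-/

namespace Vale.Agent.P254t

open MeasureTheory Finset
open Vale.Agent.P254 (act act_preserving act_embedding sgn abs_sgn sgn_sq ae_generic centroid covMat)
open Vale.Agent.P254s (quad quad_meas quad_closed)

variable {n : ℕ}

/-- A convex body invariant under the sign changes of the coordinates. -/
structure UBody (K : Set (Fin n → ℝ)) : Prop where
  convex : Convex ℝ K
  compact : IsCompact K
  interior_ne : (interior K).Nonempty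
  flip : ∀ x ∈ K, ∀ i, Function.update x i (-x i) ∈ K

theorem UBody.mem_of_abs_le {K : Set (Fin n → ℝ)} (h : UBody K) {x y : Fin n → ℝ} (hx : x ∈ K)
    (hy : ∀ i, |y i| ≤ |x i|) : y ∈ K := by
  suffices H : ∀ s : Finset (Fin n), (fun i => if i ∈ s then y i else x i) ∈ K by
    simpa using H univ
  intro s
  induction s using Finset.induction_on with
  | empty => simpa using hx
  | insert a s ha ih =>
    set z : Fin n → ℝ := fun i => if i ∈ s then y i else x i with hz
    have hza : z a = x a := by simp [hz, ha]
    have h' := h.flip z ih a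
    have key : (fun i => if i ∈ insert a s then y i else x i) = Function.update z a (y a) := by
      funext i
      by_cases hi : i = a
      · subst hi; simp
      · simp [hi, hz]
    rw [key]
    by_cases hxa : x a = 0
    · have : y a = 0 := by simpa [hxa] using hy a
      rw [this, ← hxa, ← hza, Function.update_eq_self]
      exact ih
    set t : ℝ := (1 + y a / x a) / 2
    have hr : |y a / x a| ≤ 1 := by
      rw [abs_div]; exact div_le_one_of_le₀ (hy a) (abs_nonneg _)
    obtain ⟨hr1, hr2⟩ := abs_le.1 hr
    have hmem := h.convex ih h' (a := t) (b := 1 - t) (by simp only [t]; linarith)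
      (by simp only [t]; linarith) (by ring)
    convert hmem using 1
    funext i
    by_cases hi : i = a
    · subst hi
      simp only [Function.update_self, Pi.add_apply, Pi.smul_apply, smul_eq_mul, hza, t]
      field_simp
      ring
    · simp [hi]; ring

theorem UBody.act_preimage {K : Set (Fin n → ℝ)} (h : UBody K) (b : Fin n → Bool) :
    act (1, b) ⁻¹' K = K := by
  ext x
  exact ⟨fun hx => h.mem_of_abs_le hx fun i => by simp [act, abs_mul, abs_sgn],
    fun hx => h.mem_of_abs_le hx fun i => by simp [act, abs_mul, abs_sgn]⟩

theorem UBody.integral_act {K : Set (Fin n → ℝ)} (h : UBody K) (b : Fin n → Bool)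
    (g : (Fin n → ℝ) → ℝ) : ∫ x in K, g (act (1, b) x) = ∫ x in K, g x := by
  have := (act_preserving (1, b)).setIntegral_preimage_emb (act_embedding _) g K
  rwa [h.act_preimage b] at this

theorem UBody.vol_pos {K : Set (Fin n → ℝ)} (h : UBody K) : 0 < volume.real K := by
  refine ENNReal.toReal_pos ?_ h.compact.measure_lt_top.ne
  exact ((isOpen_interior.measure_pos volume h.interior_ne).trans_le
    (measure_mono interior_subset)).ne'

theorem UBody.fold {S : Set (Fin n → ℝ)} (h : UBody S) {g : (Fin n → ℝ) → ℝ} (hg : Continuous g)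
    (hi : ∀ b : Fin n → Bool, ∀ x, g (act (1, b) x) = g x) :
    ∫ x in S, g x = (2 : ℝ) ^ n * ∫ x in S ∩ quad n 0, g x := by
  classical
  have hint : IntegrableOn g S volume := hg.continuousOn.integrableOn_compact h.compact
  set f := (quad n 0).indicator g with hf
  have key : ∀ b : Fin n → Bool, ∫ x in S, f (act (1, b) x) = ∫ x in S ∩ quad n 0, g x := by
    intro b
    rw [h.integral_act b f, hf, setIntegral_indicator (quad_meas 0)]
  have hsum : ∀ᵐ x ∂(volume.restrict S), ∑ b : Fin n → Bool, f (act (1, b) x) = g x := by
    filter_upwards [ae_restrict_of_ae (ae_generic (n := n))] with x hx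
    set b0 : Fin n → Bool := fun i => decide (0 < x i) with hb0
    rw [Finset.sum_eq_single b0]
    · rw [hf, Set.indicator_of_mem, hi]
      intro i
      simp only [act, hb0, sgn, Equiv.Perm.one_apply]
      by_cases hp : 0 < x i
      · simp [hp, hp.le]
      · simp [hp]; linarith [not_lt.1 hp]
    · intro b _ hne
      obtain ⟨i, hi'⟩ := Function.ne_iff.1 hne
      apply Set.indicator_of_notMem
      intro hmem
      have := hmem i
      have hx0 := hx.1 i
      simp only [act, hb0, sgn, Equiv.Perm.one_apply] at this hi'
      cases hb : b i <;> simp [hb] at this hi' <;> exact hx0 (by linarith)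
    · simp
  have hib : ∀ b : Fin n → Bool, IntegrableOn (fun x => f (act (1, b) x)) S volume := by
    intro b
    have e : (fun x => f (act (1, b) x)) = (act (1, b) ⁻¹' quad n 0).indicator g := by
      funext x
      by_cases hx : act (1, b) x ∈ quad n 0
      · rw [hf, Set.indicator_of_mem hx, Set.indicator_of_mem (show x ∈ _ from hx), hi]
      · rw [hf, Set.indicator_of_notMem hx, Set.indicator_of_notMem (show x ∉ _ from hx)]
    rw [e]
    exact hint.indicator ((act_preserving (1, b)).measurable (quad_meas 0))
  rw [← integral_congr_ae hsum, integral_finsetSum _ fun b _ => hib b]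
  simp [key]

theorem UBody.centroid_eq {K : Set (Fin n → ℝ)} (h : UBody K) : centroid K = 0 := by
  funext i
  have := h.integral_act (fun _ => false) fun x => x i
  simp only [act, sgn, Bool.false_eq_true, if_false, Equiv.Perm.one_apply, neg_mul, one_mul,
    integral_neg] at this
  simp [Vale.Agent.P254.centroid, show ∫ x in K, x i = 0 by linarith]

theorem UBody.covMat_eq {K : Set (Fin n → ℝ)} (h : UBody K) :
    covMat K = Matrix.diagonal fun i => (∫ x in K, x i ^ 2) / volume.real K := by
  ext i j
  simp only [covMat, h.centroid_eq, Pi.zero_apply, sub_zero]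
  by_cases hij : i = j
  · subst hij
    simp [sq]
  · rw [Matrix.diagonal_apply_ne _ hij]
    have := h.integral_act (fun l => decide (l ≠ i)) fun x => x i * x j
    simp only [act, sgn, ne_eq, Equiv.Perm.one_apply, decide_eq_true_eq, not_true, if_false,
      if_pos (Ne.symm hij), one_mul, neg_mul, integral_neg] at this
    rw [show ∫ x in K, x i * x j = 0 by linarith, zero_div]

theorem UBody.corner {K : Set (Fin n → ℝ)} (h : UBody K)
    (hsq : Convex ℝ ((fun (x : Fin n → ℝ) i => x i ^ 2) '' K)) : QBody (K ∩ quad n 0) := by
  refine ⟨⟨h.compact.inter_right (quad_closed 0), fun x hx => hx.2, fun x hx y hy hyx => ?_⟩, ?_⟩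
  · exact ⟨h.mem_of_abs_le hx.1 fun i => abs_le_abs_of_nonneg (hy i) (hyx i), hy⟩
  · intro x hx y hy a b ha hb hab
    obtain ⟨u, hu, he⟩ := hsq (Set.mem_image_of_mem _ hx.1) (Set.mem_image_of_mem _ hy.1) ha hb hab
    refine ⟨h.mem_of_abs_le hu fun i => le_of_eq ?_, fun i => Real.sqrt_nonneg _⟩
    have := congrFun he i
    simp only [Pi.add_apply, Pi.smul_apply, smul_eq_mul] at this
    rw [← this, Real.sqrt_sq_eq_abs, abs_abs]

end Vale.Agent.P254t
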