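import Vale.Agent.P254t.OneDim
import Vale.Agent.P254s.Slices

/-!
# P254: the mean logarithm of the coordinates of a down-closed set
-/

namespace Vale.Agent.P254t

open MeasureTheory Set
open Vale.Agent.P074.BM (sect isCompact_sect)
open Vale.Agent.P254s (slice slice_formula)

/-- A compact down-closed subset of the orthant. -/
structure DownSet {n : ℕ} (C : Set (Fin n → ℝ)) : Prop where
  cpt : IsCompact C
  pos : ∀ x ∈ C, ∀ i, 0 ≤ x i
  down : ∀ x ∈ C, ∀ y : Fin n → ℝ, (∀ i, 0 ≤ y i) → (∀ i, y i ≤ x i) → y ∈ C

theorem exists_radius {n : ℕ} {S : Set (Fin n → ℝ)} (hS : IsCompact S) :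
    ∃ R : ℝ, 0 < R ∧ ∀ x ∈ S, ∀ i, |x i| ≤ R := by
  obtain ⟨R, hR, hsub⟩ := hS.isBounded.subset_closedBall_lt 0 0
  exact ⟨R, hR, fun x hx i =>
    (norm_le_pi_norm x i).trans (mem_closedBall_zero_iff.1 (hsub hx))⟩

theorem log_coord_int {n : ℕ} {S : Set (Fin n → ℝ)} (hS : IsCompact S) (i : Fin n) :
    IntegrableOn (fun x => Real.log (x i)) S volume := by
  classical
  obtain ⟨R, hR, hb⟩ := exists_radius hS
  set g : Fin n → ℝ → ℝ := fun j =>
    (Icc (-R) R).indicator (if j = i then Real.log else fun _ => 1) with hg
  have hgi : ∀ j, Integrable (g j) volume := fun j => by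
    refine (integrable_indicator_iff measurableSet_Icc).2 ?_
    rw [integrableOn_Icc_iff_integrableOn_Ioc]
    split_ifs
    · exact (intervalIntegrable_iff_integrableOn_Ioc_of_le (by linarith)).1
        intervalIntegral.intervalIntegrable_log'
    · exact (integrableOn_const (measure_Ioc_lt_top.ne)).congr_fun (fun x _ => rfl) measurableSet_Ioc
  have hI : Integrable (fun x : Fin n → ℝ => ∏ j, g j (x j)) volume := by
    simpa only [← volume_pi] using Integrable.fintype_prod hgi
  refine (hI.integrableOn (s := S)).congr_fun (fun x hx => ?_) hS.measurableSet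
  have hm : ∀ j, x j ∈ Icc (-R) R := fun j => abs_le.1 (hb x hx j)
  show (∏ j, g j (x j)) = Real.log (x i)
  rw [Finset.prod_eq_single i]
  · simp [hg, hm i]
  · intro j _ hj; simp [hg, hm j, hj]
  · simp

theorem sect_fubini {n : ℕ} {S : Set (Fin (n + 1) → ℝ)} (hS : IsCompact S)
    {g : (Fin (n + 1) → ℝ) → ℝ} (hg : IntegrableOn g S volume) :
    Integrable (fun u => ∫ z in sect S u, g (Fin.cons u z)) volume ∧
      ∫ x in S, g x = ∫ u, ∫ z in sect S u, g (Fin.cons u z) := by
  set e := (MeasurableEquiv.piFinSuccAbove (fun _ : Fin (n + 1) => ℝ) 0).symm with he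
  have hmp : MeasurePreserving e volume volume :=
    (volume_preserving_piFinSuccAbove (fun _ : Fin (n + 1) => ℝ) 0).symm
  have hee : ∀ p : ℝ × (Fin n → ℝ), e p = Fin.cons p.1 p.2 := fun p => by
    simp [he, MeasurableEquiv.piFinSuccAbove_symm_apply, Fin.insertNthEquiv, Fin.insertNth_zero']
  have hm : MeasurableSet (e ⁻¹' S) := e.measurable hS.measurableSet
  set F := fun p : ℝ × (Fin n → ℝ) => (e ⁻¹' S).indicator (fun p => g (e p)) p with hF
  have hFi : Integrable F (volume.prod volume) := by
    rw [← Measure.volume_eq_prod]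
    exact (integrable_indicator_iff hm).2
      ((hmp.integrableOn_comp_preimage e.measurableEmbedding).2 hg)
  have hinner : ∀ u, ∫ z, F (u, z) = ∫ z in sect S u, g (Fin.cons u z) := fun u => by
    rw [← integral_indicator (isCompact_sect hS u).measurableSet]
    congr 1
    funext z
    by_cases hz : (u, z) ∈ e ⁻¹' S
    · rw [indicator_of_mem (show z ∈ sect S u from by simpa [sect, hee] using hz)]
      simp only [hF, indicator_of_mem hz, hee]
    · rw [indicator_of_notMem (show z ∉ sect S u from by simpa [sect, hee] using hz)]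
      simp only [hF, indicator_of_notMem hz]
  have h1 := hFi.integral_prod_left
  simp only [hinner] at h1
  refine ⟨h1, ?_⟩
  rw [← hmp.setIntegral_preimage_emb e.measurableEmbedding _ S, ← integral_indicator hm,
    Measure.volume_eq_prod, integral_prod _ hFi]
  exact integral_congr_ae (Filter.Eventually.of_forall hinner)

theorem DownSet.sect {n : ℕ} {C : Set (Fin (n + 1) → ℝ)} (h : DownSet C) (u : ℝ) :
    DownSet (sect C u) := by
  refine ⟨isCompact_sect h.cpt u, fun z hz i => ?_, fun z hz w hw0 hwz => ?_⟩
  · simpa using h.pos _ hz i.succ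
  · refine h.down _ hz _ (fun i => ?_) fun i => ?_
    · refine Fin.cases ?_ (fun k => ?_) i
      · simpa using h.pos _ hz 0
      · simpa using hw0 k
    · refine Fin.cases ?_ (fun k => ?_) i <;> simp [hwz]

theorem DownSet.slice_anti {n : ℕ} {C : Set (Fin (n + 1) → ℝ)} (h : DownSet C) :
    Antitone fun t => slice C (max t 0) := fun u v huv => by
  refine ENNReal.toReal_mono (isCompact_sect h.cpt _).measure_lt_top.ne (measure_mono fun z hz => ?_)
  refine h.down _ hz _ (fun i => ?_) fun i => ?_
  · refine Fin.cases ?_ (fun k => ?_) i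
    · simp
    · simpa using h.pos _ hz k.succ
  · refine Fin.cases ?_ (fun k => ?_) i
    · simpa using max_le_max_right 0 huv
    · simp

theorem DownSet.slice_out {n : ℕ} {C : Set (Fin (n + 1) → ℝ)} (h : DownSet C) :
    ∃ B : ℝ, 0 < B ∧ ∀ u, u ∉ Icc 0 B → Vale.Agent.P074.BM.sect C u = ∅ := by
  obtain ⟨B, hB, hb⟩ := exists_radius h.cpt
  refine ⟨B, hB, fun u hu => eq_empty_of_forall_notMem fun z hz => hu ⟨?_, ?_⟩⟩
  · simpa using h.pos _ hz 0
  · simpa using (le_abs_self _).trans (hb _ hz 0)

theorem integral_line {B : ℝ} (hB : 0 ≤ B) {φ : ℝ → ℝ} (h : ∀ u, u ∉ Icc 0 B → φ u = 0) :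
    ∫ u, φ u = ∫ u in (0:ℝ)..B, φ u := by
  rw [intervalIntegral.integral_of_le hB, ← integral_Icc_eq_integral_Ioc]
  exact (setIntegral_eq_integral_of_forall_compl_eq_zero h).symm

/-- The mean of `∑ log x i` over a down-closed set is at most `log V - n`. -/
theorem log_mean : ∀ {n : ℕ} {C : Set (Fin n → ℝ)}, DownSet C →
    ∫ x in C, ∑ i, Real.log (x i) ≤
      volume.real C * Real.log (volume.real C) - (n : ℝ) * volume.real C := by
  intro n
  induction n with
  | zero =>
    intro C h
    have : volume.real C = 0 ∨ volume.real C = 1 := by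
      rcases Set.eq_empty_or_nonempty C with he | hne
      · left; simp [he]
      · right
        rw [(Subsingleton.eq_univ_of_nonempty hne)]
        simp [measureReal_def, volume_pi]
    rcases this with e | e <;> simp [e]
  | succ n ih =>
    intro C h
    obtain ⟨B, hB, hout⟩ := h.slice_out
    set f := fun t => slice C (max t 0) with hf
    have hf0 : ∀ t, 0 ≤ f t := fun t => measureReal_nonneg
    have hfe : ∀ t, 0 ≤ t → f t = slice C t := fun t ht => by simp [hf, max_eq_left ht]
    obtain ⟨hi, hle⟩ := antitone_log h.slice_anti hf0 hB.le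
    obtain ⟨j1, e1⟩ := slice_formula h.cpt (φ := fun _ => 1)
      (integrableOn_const h.cpt.measure_lt_top.ne)
    have hV : volume.real C = ∫ t in (0:ℝ)..B, f t := by
      have : ∫ x in C, (1:ℝ) = volume.real C := by simp
      rw [← this, e1, integral_line hB.le fun u hu => by simp [slice, hout u hu]]
      refine intervalIntegral.integral_congr fun t ht => ?_
      rw [uIcc_of_le hB.le] at ht
      simp [hfe t ht.1]
    have hint : IntegrableOn (fun x : Fin (n + 1) → ℝ => ∑ i : Fin n, Real.log (x i.succ)) C :=
      integrable_finsetSum _ fun i _ => log_coord_int h.cpt i.succ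
    obtain ⟨i0, e0⟩ := slice_formula h.cpt (φ := Real.log) (log_coord_int h.cpt 0)
    obtain ⟨is, es⟩ := sect_fubini h.cpt hint
    simp only [Fin.cons_succ] at is es
    rw [show (fun x : Fin (n + 1) → ℝ => ∑ i, Real.log (x i)) = fun x =>
        Real.log (x 0) + ∑ i : Fin n, Real.log (x i.succ) from funext fun x => Fin.sum_univ_succ _,
      integral_add (log_coord_int h.cpt 0) hint, e0, es,
      integral_line hB.le (fun u hu => by simp [slice, hout u hu]),
      integral_line hB.le (fun u hu => by simp [hout u hu]),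
      ← intervalIntegral.integral_add i0.intervalIntegrable is.intervalIntegrable]
    calc ∫ u in (0:ℝ)..B, (slice C u * Real.log u +
            ∫ z in Vale.Agent.P074.BM.sect C u, ∑ i, Real.log (z i))
        ≤ ∫ u in (0:ℝ)..B, ((f u * Real.log u + f u * Real.log (f u)) - (n : ℝ) * f u) := by
          refine intervalIntegral.integral_mono_on hB.le
            (i0.intervalIntegrable.add is.intervalIntegrable)
            (hi.sub ((h.slice_anti.intervalIntegrable).const_mul _)) fun u hu => ?_
          have := ih (h.sect u)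
          rw [hfe u hu.1]
          simp only [slice] at this ⊢
          linarith
      _ ≤ _ := by
          rw [intervalIntegral.integral_sub hi (h.slice_anti.intervalIntegrable.const_mul _),
            intervalIntegral.integral_const_mul, ← hV]
          rw [← hV] at hle
          push_cast
          linarith

end Vale.Agent.P254t
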