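import Vale.Agent.P254t.Fold
import Vale.Agent.P254s.Algebra
import Vale.Agent.P254.Simplex

/-!
# P254: unconditional 2-convex bodies have isotropic constant below the simplex
-/

namespace Vale.Agent.P254t

open MeasureTheory Real
open Vale.Agent.P254 (act act_preserving act_embedding sgn covMat isoConst simplex)
open Vale.Agent.P254s (quad)

variable {m : ℕ}

theorem QBody.coord (hm : 1 ≤ m) {C : Set (Fin (m + 1) → ℝ)} (h : QBody C)
    (hV : 0 < volume.real C) (i : Fin (m + 1)) :
    0 < ∫ x in C, x i ^ 2 ∧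
    (log (((m:ℝ) + 3) * ((∫ x in C, x i ^ 2) / volume.real C)) / 2 + wLog m / wMass m) *
      volume.real C ≤ ∫ x in C, log (x i) := by
  set σ : Equiv.Perm (Fin (m + 1)) := Equiv.swap 0 i with hσ
  set P : (Fin (m + 1) → ℝ) → (Fin (m + 1) → ℝ) := act (σ, fun _ => true) with hP
  have hPx : ∀ x j, P x j = x (σ j) := fun x j => by simp [hP, act, sgn]
  have hsw : ∀ j, σ (σ j) = j := fun j => by simp [hσ]
  have hinv : ∀ x, P (P x) = x := fun x => funext fun j => by simp [hPx, hsw]
  have hC : QBody (P ⁻¹' C) := by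
    refine ⟨⟨?_, fun x hx j => ?_, fun x hx y hy hyx => ?_⟩, fun x hx y hy a b ha hb hab => ?_⟩
    · have : P ⁻¹' C = P '' C := Set.Subset.antisymm (fun x hx => ⟨P x, hx, hinv x⟩) (by
        rintro _ ⟨x, hx, rfl⟩; show P (P x) ∈ C; rwa [hinv])
      rw [this]
      exact h.cpt.image (continuous_pi fun j => by simpa only [hPx] using continuous_apply (σ j))
    · have := h.pos _ hx (σ j); rwa [hPx, hsw] at this
    · exact h.down _ hx (P y) (fun j => by rw [hPx]; exact hy _)
        (fun j => by rw [hPx, hPx]; exact hyx _)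
    · show P _ ∈ C
      convert h.rms _ hx _ hy a b ha hb hab using 1
      funext j
      simp [hPx]
  have hpre := fun g : (Fin (m + 1) → ℝ) → ℝ =>
    (act_preserving (σ, fun _ => true)).setIntegral_preimage_emb (act_embedding _) g C
  have e1 := hpre fun x => x i ^ 2
  have e2 := hpre fun x => log (x i)
  rw [← hP] at e1 e2
  have hσi : σ i = 0 := by simp [hσ]
  simp only [hPx, hσi] at e1 e2
  have eV : volume.real (P ⁻¹' C) = volume.real C := by
    rw [measureReal_def, measureReal_def]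
    exact congrArg _ ((act_preserving _).measure_preimage_emb (act_embedding _) C)
  have := coord_bound hm hC (eV.symm ▸ hV)
  rw [e1, e2, eV] at this
  exact this

theorem prod_bound (hm : 1 ≤ m) {C : Set (Fin (m + 1) → ℝ)} (h : QBody C)
    (hV : 0 < volume.real C) :
    (∏ i, (∫ x in C, x i ^ 2) / volume.real C) / volume.real C ^ 2 <
      (((m:ℝ) + 2) / (2 * ((m:ℝ) + 3))) ^ (m + 1) := by
  set V := volume.real C with hVd
  set e := wLog m / wMass m with he
  set q := fun i => (∫ x in C, x i ^ 2) / V with hq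
  have hq0 : ∀ i, 0 < q i := fun i => div_pos (h.coord hm hV i).1 hV
  have hsum : (∑ i, (log (((m:ℝ) + 3) * q i) / 2 + e)) * V ≤ V * log V - ((m:ℝ) + 1) * V := by
    rw [Finset.sum_mul]
    calc ∑ i, (log (((m:ℝ) + 3) * q i) / 2 + e) * V ≤ ∑ i, ∫ x in C, log (x i) :=
          Finset.sum_le_sum fun i _ => (h.coord hm hV i).2
      _ = ∫ x in C, ∑ i, log (x i) :=
          (integral_finsetSum _ fun i _ => log_coord_int h.cpt i).symm
      _ ≤ _ := by
          have := log_mean h.toDownSet
          push_cast at this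
          exact this
  have hl := profile_log m hm
  rw [← he] at hl
  show (∏ i, q i) / V ^ 2 < _
  have hP : 0 < ∏ i, q i := Finset.prod_pos fun i _ => hq0 i
  rw [← log_lt_log_iff (by positivity) (by positivity), log_div hP.ne' (by positivity),
    log_prod fun i _ => (hq0 i).ne', log_pow, log_pow]
  have hsum' : ∑ i, (log (((m:ℝ) + 3) * q i) / 2 + e) =
      (∑ i, log (q i)) / 2 + ((m:ℝ) + 1) * (log ((m:ℝ) + 3) / 2 + e) := by
    have : ∀ i, log (((m:ℝ) + 3) * q i) / 2 + e = log (q i) / 2 + (log ((m:ℝ) + 3) / 2 + e) :=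
      fun i => by rw [log_mul (by positivity) (hq0 i).ne']; ring
    simp only [this, Finset.sum_add_distrib, Finset.sum_div, Finset.sum_const, Finset.card_univ,
      Fintype.card_fin, nsmul_eq_mul]
    push_cast
    ring
  rw [hsum'] at hsum
  have h1 : (∑ i, log (q i)) / 2 + ((m:ℝ) + 1) * (log ((m:ℝ) + 3) / 2 + e) ≤
      log V - ((m:ℝ) + 1) :=
    le_of_mul_le_mul_right (hsum.trans_eq (by ring)) hV
  have h2 : log (((m:ℝ) + 2) / (2 * ((m:ℝ) + 3))) = log (((m:ℝ) + 2) / 2) - log ((m:ℝ) + 3) := by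
    rw [← log_div (by positivity) (by positivity), div_div]
  rw [h2]
  have h3 := mul_lt_mul_of_pos_left hl (show (0:ℝ) < (m:ℝ) + 1 by positivity)
  push_cast
  linarith

theorem isoConst_lt (hm : 1 ≤ m) {K : Set (Fin (m + 1) → ℝ)} (h : UBody K)
    (hsq : Convex ℝ ((fun (x : Fin (m + 1) → ℝ) i => x i ^ 2) '' K)) :
    isoConst K < isoConst (simplex (m + 1)) := by
  have hC := h.corner hsq
  set C := K ∩ quad (m + 1) 0
  have hK : volume.real K = 2 ^ (m + 1) * volume.real C := by
    have := h.fold (g := fun _ => (1:ℝ)) continuous_const fun _ _ => rfl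
    simpa using this
  have hV : 0 < volume.real C := by
    have := h.vol_pos
    rw [hK] at this
    exact pos_of_mul_pos_right this (by positivity)
  have hQ : ∀ i, (∫ x in K, x i ^ 2) / volume.real K =
      (∫ x in C, x i ^ 2) / volume.real C := fun i => by
    rw [h.fold (by fun_prop) fun b x => by
      simp only [act, Equiv.Perm.one_apply, mul_pow, sgn]; split_ifs <;> ring, hK,
      mul_div_mul_left _ _ (by positivity)]
  have hr : (covMat K).det / volume.real K ^ 2 =
      (∏ i, (∫ x in C, x i ^ 2) / volume.real C) / volume.real C ^ 2 / 4 ^ (m + 1) := by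
    rw [h.covMat_eq, Matrix.det_diagonal, hK]
    simp only [← hK, hQ]
    rw [hK, mul_pow, div_div, ← pow_mul, mul_comm (m + 1) 2, pow_mul,
      show ((2:ℝ) ^ 2) = 4 by norm_num, mul_comm ((4:ℝ) ^ (m + 1))]
  refine Real.rpow_lt_rpow ?_ ?_ (by positivity)
  · rw [hr]
    exact div_nonneg (div_nonneg (Finset.prod_nonneg fun i _ => div_nonneg
      (setIntegral_nonneg hC.cpt.measurableSet fun x _ => sq_nonneg _) hV.le) (by positivity))
      (by positivity)
  rw [hr, div_lt_iff₀ (by positivity)]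
  refine (prod_bound hm hC hV).trans_le ?_
  rw [Vale.Agent.P254.simplex_det]
  have hn := Vale.Agent.P254s.numeric_all (m + 1) (by omega)
  push_cast at hn ⊢
  have e : (m : ℝ) + 1 + 2 = (m : ℝ) + 3 := by ring
  have e' : (m : ℝ) + 1 + 1 = (m : ℝ) + 2 := by ring
  rw [e'] at hn
  rw [e, e', div_pow, mul_pow, div_mul_eq_mul_div, div_le_div_iff₀ (by positivity) (by positivity)]
  calc ((m : ℝ) + 2) ^ (m + 1) * (((m : ℝ) + 2) ^ (m + 1 + 1) * ((m : ℝ) + 3) ^ (m + 1))
      = ((m : ℝ) + 2) ^ (2 * (m + 1) + 1) * ((m : ℝ) + 3) ^ (m + 1) := by ring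
    _ ≤ 8 ^ (m + 1) * ((m + 1).factorial : ℝ) ^ 2 * ((m : ℝ) + 3) ^ (m + 1) := by gcongr
    _ = _ := by rw [show (8:ℝ) = 2 * 4 by norm_num, mul_pow]; ring

end Vale.Agent.P254t
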