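import Mathlib

/-!
# P254: one dimensional inequalities: logarithms against decreasing profiles, a crossing comparison
-/

namespace Vale.Agent.P254t

open MeasureTheory Set Filter Topology

/-- For a decreasing profile on an interval, the mean of `log t + log f` is at most `log V - 1`. -/
theorem antitone_log {f : ℝ → ℝ} (hf : Antitone f) (h0 : ∀ t, 0 ≤ f t) {B : ℝ} (hB : 0 ≤ B) :
    IntervalIntegrable (fun t => f t * Real.log t + f t * Real.log (f t)) volume 0 B ∧
    ∫ t in (0:ℝ)..B, (f t * Real.log t + f t * Real.log (f t)) ≤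
      (∫ t in (0:ℝ)..B, f t) * Real.log (∫ t in (0:ℝ)..B, f t) - ∫ t in (0:ℝ)..B, f t := by
  have hint : ∀ a b : ℝ, IntervalIntegrable f volume a b := fun a b => hf.intervalIntegrable
  have hi1 : IntervalIntegrable (fun t => f t * Real.log t + f t * Real.log (f t)) volume 0 B := by
    rw [intervalIntegrable_iff_integrableOn_Ioc_of_le hB]
    refine Integrable.add ?_ ?_
    · refine ((intervalIntegrable_iff_integrableOn_Ioc_of_le hB).1
        intervalIntegral.intervalIntegrable_log').bdd_mul (c := f 0)
        hf.measurable.aestronglyMeasurable ?_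
      filter_upwards [ae_restrict_mem measurableSet_Ioc] with t ht
      rw [Real.norm_eq_abs, abs_of_nonneg (h0 t)]
      exact hf ht.1.le
    · obtain ⟨C, hC⟩ := (isCompact_Icc (a := (0:ℝ)) (b := f 0)).exists_bound_of_continuousOn
        Real.continuous_mul_log.continuousOn
      refine Integrable.of_bound
        ((Real.continuous_mul_log.measurable.comp hf.measurable).aestronglyMeasurable) C ?_
      filter_upwards [ae_restrict_mem measurableSet_Ioc] with t ht
      exact hC (f t) ⟨h0 t, hf ht.1.le⟩
  refine ⟨hi1, ?_⟩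
  set F := fun x : ℝ => ∫ t in (0:ℝ)..x, f t with hF
  set r := Function.rightLim f with hr
  set φ := fun t => r t * Real.log t + r t * Real.log (r t) with hφ
  have hae : ∀ᵐ t : ℝ, r t = f t := by
    filter_upwards [hf.countable_not_continuousAt.ae_notMem volume] with t ht
    simp only [not_not] at ht
    exact hf.continuousWithinAt_Ioi_iff_rightLim_eq.1 ht.continuousWithinAt
  have hφae : ∀ᵐ t : ℝ, φ t = f t * Real.log t + f t * Real.log (f t) := by
    filter_upwards [hae] with t ht; simp [hφ, ht]
  have hFc : Continuous F := intervalIntegral.continuous_primitive hint 0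
  have hr0 : ∀ x, 0 ≤ r x := fun x =>
    ge_of_tendsto (hf.tendsto_rightLim x) (Eventually.of_forall h0)
  have hxr : ∀ x, 0 ≤ x → x * r x ≤ F x := fun x hx => by
    refine (mul_le_mul_of_nonneg_left (hf.rightLim_le le_rfl) hx).trans ?_
    calc x * f x = ∫ _ in (0:ℝ)..x, f x := by simp
      _ ≤ F x := intervalIntegral.integral_mono_on hx intervalIntegrable_const (hint _ _)
          fun u hu => hf hu.2
  have hFd : ∀ x, HasDerivWithinAt F (r x) (Ioi x) x := fun x => by
    have : HasDerivWithinAt F (r x) (Ici x) x :=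
      intervalIntegral.integral_hasDerivWithinAt_of_tendsto_ae_right (hint 0 x)
        (t := Ioi x) hf.measurable.aestronglyMeasurable.stronglyMeasurableAtFilter
        ((hf.tendsto_rightLim x).mono_left inf_le_left)
    exact this.mono Ioi_subset_Ici_self
  set G := fun x => F x * Real.log (F x) - F x with hG
  have key := intervalIntegral.integral_le_sub_of_hasDeriv_right_of_le (g := G)
    (g' := fun x => r x * Real.log (F x)) (φ := φ) hB
    ((Real.continuous_mul_log.comp hFc).sub hFc).continuousOn ?_ ?_ ?_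
  · have e1 : ∫ t in (0:ℝ)..B, φ t = ∫ t in (0:ℝ)..B, (f t * Real.log t + f t * Real.log (f t)) :=
      intervalIntegral.integral_congr_ae (by filter_upwards [hφae] with t ht _ using ht)
    have e2 : G 0 = 0 := by simp [hG, hF]
    rw [e1, e2, sub_zero] at key
    exact key
  · intro x hx
    have h1 := hFd x
    rcases eq_or_lt_of_le (show 0 ≤ F x from
      intervalIntegral.integral_nonneg hx.1.le fun u _ => h0 u) with hz | hz
    · have hfx : f x = 0 := by
        refine le_antisymm ?_ (h0 x)
        have hh : x * f x ≤ F x := by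
          calc x * f x = ∫ _ in (0:ℝ)..x, f x := by simp
            _ ≤ F x := intervalIntegral.integral_mono_on hx.1.le intervalIntegrable_const (hint _ _)
                fun u hu => hf hu.2
        rw [← hz] at hh
        nlinarith [hx.1]
      have hrx : r x = 0 :=
        le_antisymm ((hf.rightLim_le le_rfl).trans hfx.le) (hr0 x)
      simp only [hrx, zero_mul]
      refine (hasDerivWithinAt_const (x := x) (s := Ioi x) (c := G x)).congr (fun y hy => ?_) rfl
      have : F y = F x := by
        simp only [hF]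
        have hz' : ∫ u in x..y, f u = 0 := by
          rw [intervalIntegral.integral_congr (g := fun _ => (0:ℝ)) fun u hu => ?_]
          · simp
          · rw [uIcc_of_le (mem_Ioi.1 hy).le] at hu
            exact le_antisymm ((hf hu.1).trans hfx.le) (h0 u)
        rw [← intervalIntegral.integral_add_adjacent_intervals (hint 0 x) (hint x y), hz', add_zero]
      simp [hG, this]
    · have := ((Real.hasDerivAt_mul_log hz.ne').comp_hasDerivWithinAt x h1).sub h1
      refine this.congr_deriv ?_
      ring
  · rw [integrableOn_Icc_iff_integrableOn_Ioc]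
    exact Integrable.congr ((intervalIntegrable_iff_integrableOn_Ioc_of_le hB).1 hi1)
      (ae_restrict_of_ae (hφae.mono fun t ht => ht.symm))
  · intro x hx
    show r x * Real.log x + r x * Real.log (r x) ≤ r x * Real.log (F x)
    rcases eq_or_lt_of_le (hr0 x) with hz | hz
    · simp [← hz]
    · rw [← mul_add, ← Real.log_mul hx.1.ne' hz.ne']
      exact mul_le_mul_of_nonneg_left (Real.log_le_log (mul_pos hx.1 hz) (hxr x hx.1.le)) hz.le

theorem log_three {x y z : ℝ} (hx : 0 < x) (hxy : x < y) (hyz : y < z) :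
    (z - y) * Real.log x + (y - x) * Real.log z ≤ (z - x) * Real.log y := by
  have := strictConcaveOn_log_Ioi.concaveOn.2 (show x ∈ Ioi 0 from hx)
    (show z ∈ Ioi 0 from hx.trans (hxy.trans hyz))
    (show 0 ≤ (z - y) / (z - x) by apply div_nonneg <;> linarith)
    (show 0 ≤ (y - x) / (z - x) by apply div_nonneg <;> linarith)
    (by field_simp [(by linarith : z - x ≠ 0)]; ring)
  simp only [smul_eq_mul] at this
  have hzx : 0 < z - x := by linarith
  rw [show (z - y) / (z - x) * x + (y - x) / (z - x) * z = y by field_simp; ring,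
    div_mul_eq_mul_div, div_mul_eq_mul_div, ← add_div, div_le_iff₀ hzx] at this
  linarith

/-- A difference of two profiles with the same mass and second moment, which is positive only on an
interval, has a nonnegative logarithmic moment. -/
theorem crossing {h : ℝ → ℝ} {B : ℝ}
    (hi : IntegrableOn h (Ioo 0 B)) (hl : IntegrableOn (fun t => Real.log t * h t) (Ioo 0 B))
    (hconn : ∀ x y t, 0 < x → x < t → t < y → y < B → 0 < h x → 0 < h y → 0 < h t)
    (hm : ∫ t in Ioo 0 B, h t = 0) (hs : ∫ t in Ioo 0 B, t ^ 2 * h t = 0) :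
    0 ≤ ∫ t in Ioo 0 B, Real.log t * h t := by
  have hi2 : IntegrableOn (fun t => t ^ 2 * h t) (Ioo 0 B) := by
    refine Integrable.bdd_mul (c := B ^ 2) hi (by fun_prop) ?_
    filter_upwards [ae_restrict_mem measurableSet_Ioo] with t ht
    rw [Real.norm_eq_abs, abs_of_nonneg (sq_nonneg t)]
    exact pow_le_pow_left₀ ht.1.le ht.2.le 2
  have hzero : (∀ᵐ t ∂(volume.restrict (Ioo 0 B)), h t = 0) →
      0 ≤ ∫ t in Ioo 0 B, Real.log t * h t := fun hz => by
    rw [integral_eq_zero_of_ae (by filter_upwards [hz] with t ht; simp [ht])]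
  set S := {t | t ∈ Ioo (0:ℝ) B ∧ 0 < h t} with hS
  rcases S.eq_empty_or_nonempty with he | hne
  · refine hzero ?_
    have h0 : 0 ≤ᵐ[volume.restrict (Ioo 0 B)] fun t => -h t := by
      filter_upwards [ae_restrict_mem measurableSet_Ioo] with t ht
      have : t ∉ S := by simp [he]
      simp only [hS, mem_ofPred_eq, not_and, not_lt] at this
      simpa using this ht
    have := (integral_eq_zero_iff_of_nonneg_ae h0 hi.neg).1 (by rw [integral_neg, hm, neg_zero])
    filter_upwards [this] with t ht; simpa using ht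
  have hbb : BddBelow S := ⟨0, fun t ht => ht.1.1.le⟩
  have hba : BddAbove S := ⟨B, fun t ht => ht.1.2.le⟩
  set a := sInf S with ha
  set b := sSup S with hb
  have ha0 : 0 ≤ a := le_csInf hne fun t ht => ht.1.1.le
  have hab : a ≤ b := csInf_le_csSup hne hbb hba
  have hin : ∀ t, a < t → t < b → 0 < h t := fun t h1 h2 => by
    obtain ⟨x, hx, hxt⟩ := exists_lt_of_csInf_lt hne h1
    obtain ⟨y, hy, hty⟩ := exists_lt_of_lt_csSup hne h2
    exact hconn x y t hx.1.1 hxt hty hy.1.2 hx.2 hy.2
  have hout : ∀ t ∈ Ioo 0 B, t < a ∨ b < t → h t ≤ 0 := fun t ht hc => by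
    by_contra hp
    have htS : t ∈ S := ⟨ht, not_le.1 hp⟩
    rcases hc with hc | hc
    · linarith [csInf_le hbb htS]
    · linarith [le_csSup hba htS]
  have hne' : ∀ c : ℝ, ∀ᵐ t ∂(volume.restrict (Ioo 0 B)), t ≠ c := fun c =>
    ae_restrict_of_ae (Measure.ae_ne volume c)
  have hsplit : ∀ c : ℝ, ∫ t in Ioo 0 B, (c ^ 2 - t ^ 2) * h t = 0 := fun c => by
    simp only [sub_mul]
    rw [integral_sub (hi.const_mul _) hi2, integral_const_mul, hm, hs]; simp
  by_cases hdeg : a = 0 ∨ a = b
  · refine hzero ?_
    rcases hdeg with hd | hd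
    · have hk : 0 ≤ᵐ[volume.restrict (Ioo 0 B)] fun t => (b ^ 2 - t ^ 2) * h t := by
        filter_upwards [ae_restrict_mem measurableSet_Ioo, hne' b] with t ht htb
        rcases lt_or_gt_of_ne htb with hlt | hgt
        · exact mul_nonneg (by nlinarith [ht.1]) (hin t (hd ▸ ht.1) hlt).le
        · exact mul_nonneg_of_nonpos_of_nonpos (by nlinarith [ha0, hab]) (hout t ht (Or.inr hgt))
      have := (integral_eq_zero_iff_of_nonneg_ae hk
        (((hi.const_mul (b ^ 2)).sub hi2).congr
          (Eventually.of_forall fun t => (sub_mul (b ^ 2) (t ^ 2) (h t)).symm))).1 (hsplit b)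
      filter_upwards [this, ae_restrict_mem measurableSet_Ioo, hne' b] with t ht hmem htb
      simp only [Pi.zero_apply] at ht
      rcases mul_eq_zero.1 ht with hz | hz
      · exfalso
        apply htb
        nlinarith [hmem.1, ha0, hab, sq_nonneg (b - t)]
      · exact hz
    · have h0 : 0 ≤ᵐ[volume.restrict (Ioo 0 B)] fun t => -h t := by
        filter_upwards [ae_restrict_mem measurableSet_Ioo, hne' a] with t ht hta
        refine neg_nonneg.2 (hout t ht ?_)
        rw [← hd]; exact lt_or_gt_of_ne hta
      have := (integral_eq_zero_iff_of_nonneg_ae h0 hi.neg).1 (by rw [integral_neg, hm, neg_zero])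
      filter_upwards [this] with t ht; simpa using ht
  push Not at hdeg
  have hap : 0 < a := lt_of_le_of_ne ha0 (Ne.symm hdeg.1)
  have hablt : a < b := lt_of_le_of_ne hab hdeg.2
  have hsq : a ^ 2 < b ^ 2 := pow_lt_pow_left₀ hablt hap.le two_ne_zero
  set c := (Real.log (b ^ 2) - Real.log (a ^ 2)) / (b ^ 2 - a ^ 2) with hc
  set d := Real.log (a ^ 2) - c * a ^ 2 with hd
  have hcd : c * (b ^ 2 - a ^ 2) = Real.log (b ^ 2) - Real.log (a ^ 2) := by
    rw [hc]; exact div_mul_cancel₀ _ (by linarith)
  have hk : 0 ≤ᵐ[volume.restrict (Ioo 0 B)] fun t =>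
      2 * (Real.log t * h t) - d * h t - c * (t ^ 2 * h t) := by
    filter_upwards [ae_restrict_mem measurableSet_Ioo, hne' a, hne' b] with t ht hta htb
    have ht2 : 0 < t ^ 2 := pow_pos ht.1 2
    have el : Real.log (t ^ 2) = 2 * Real.log t := by simp [Real.log_pow]
    have e : 2 * (Real.log t * h t) - d * h t - c * (t ^ 2 * h t) =
        (Real.log (t ^ 2) - d - c * t ^ 2) * h t := by rw [el]; ring
    rw [Pi.zero_apply, e]
    have hw : 0 < b ^ 2 - a ^ 2 := by linarith
    have hχ : (b ^ 2 - a ^ 2) * (Real.log (t ^ 2) - d - c * t ^ 2) =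
        (b ^ 2 - a ^ 2) * Real.log (t ^ 2) - (b ^ 2 - t ^ 2) * Real.log (a ^ 2) -
          (t ^ 2 - a ^ 2) * Real.log (b ^ 2) := by
      rw [hd]; linear_combination (a ^ 2 - t ^ 2) * hcd
    rcases lt_or_gt_of_ne hta with h1 | h1
    · have := log_three ht2 (pow_lt_pow_left₀ h1 ht.1.le two_ne_zero) hsq
      refine mul_nonneg_of_nonpos_of_nonpos ?_ (hout t ht (Or.inl h1))
      refine nonpos_of_mul_nonpos_right (a := b ^ 2 - a ^ 2) ?_ hw
      rw [hχ]; linarith
    rcases lt_or_gt_of_ne htb with h2 | h2
    · have := log_three (pow_pos hap 2) (pow_lt_pow_left₀ h1 hap.le two_ne_zero)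
        (pow_lt_pow_left₀ h2 ht.1.le two_ne_zero)
      refine mul_nonneg ?_ (hin t h1 h2).le
      refine nonneg_of_mul_nonneg_right (a := b ^ 2 - a ^ 2) ?_ hw
      rw [hχ]; linarith
    · have := log_three (pow_pos hap 2) hsq (pow_lt_pow_left₀ h2 (hap.trans hablt).le two_ne_zero)
      refine mul_nonneg_of_nonpos_of_nonpos ?_ (hout t ht (Or.inr h2))
      refine nonpos_of_mul_nonpos_right (a := b ^ 2 - a ^ 2) ?_ hw
      rw [hχ]; linarith
  have hkk := integral_nonneg_of_ae hk
  have i1 := hl.const_mul 2
  have i2 := hi.const_mul d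
  have i12 : IntegrableOn (fun t => 2 * (Real.log t * h t) - d * h t) (Ioo 0 B) := i1.sub i2
  rw [integral_sub i12 (hi2.const_mul c),
    integral_sub i1 i2, integral_const_mul, integral_const_mul,
    integral_const_mul, hm, hs] at hkk
  linarith

end Vale.Agent.P254t
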